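import Vale.Agent.P330.H475.Half
import Vale.Agent.P330.FM.FuncFin
import Vale.Agent.P330.W.H281.UpZ

/-!
# P330: the PCP-for-PPAD conjecture

There are constants `ε, δ > 0` and polynomial time algorithms `R`, `D` such that for every instance
`I` of End-of-Line the generalized circuit `R I` has quasi-linear size and an acceptable assignment,
and `D` maps every assignment of `R I` which `ε`-satisfies at least the fraction `1 - δ` of the gates
to a solution of `I`.  See `Vale/Agent/P330/H241/Defs.lean` for the definitions.
-/

namespace Vale.Agent.Results.P330.QuasiLinear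

open Vale.Agent.P330

/-- **The PCP-for-PPAD conjecture**, for all polynomials `p` of degree at least `2` bounding the
length of the assignments. -/
theorem result : ∃ ε δ : ℚ, 0 < ε ∧ ε < 1 ∧ 0 < δ ∧ δ < 1 ∧
    ∀ p : Polynomial ℕ, 2 ≤ p.natDegree → Vale.Agent.P330.PCPforPPAD ε δ p := by
  obtain ⟨S⟩ := H281.upperStmt
  exact H475.pcp_all FM.funcStmt S

end Vale.Agent.Results.P330.QuasiLinear
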